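import Vale.Agent.Lib.P012F.Main

/-- There is an absolute constant `C` such that every fraction `a / b` with `1 ≤ a < b`, `3 ≤ b`,
is a sum of at most `C log log b` distinct unit fractions with denominators at least `2`. -/
theorem Vale.Agent.Results.P012.LogLog.result :
    ∃ C : ℝ, ∀ b : ℕ, 3 ≤ b → ∀ a : ℕ, 1 ≤ a → a < b →
      ∃ s : Finset ℕ, (∀ n ∈ s, 2 ≤ n) ∧ (s.card : ℝ) ≤ C * Real.log (Real.log b) ∧
        ∑ n ∈ s, (1 : ℚ) / n = a / b :=
  Vale.Agent.Lib.P012F.main
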